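import Vale.Agent.P038.H214.Key

/-!
# Seymour's second neighbourhood conjecture: the final contradiction

`N v` is the closed out-neighbourhood of `v`. If a strictly cheaper closure `h (N[S]) < h S` holds
for all sets `S` which are not closed, if there are no opposite arcs and if every vertex has an
out-neighbour, there is a contradiction.
-/

namespace Vale.Agent.P038.H803

open Finset H214

variable {V : Type*} [Fintype V] [DecidableEq V]

/-- outer pairs of families -/
structure Outer (N B C : V → Finset V) : Prop where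
  nb : ∀ a, N a ⊆ B a
  nc : ∀ a, N a ⊆ C a
  comp : ∀ a x, x ∈ B a → a ∈ C x → x = a

/-- the cost of a pair of families -/
def cost (N B C : V → Finset V) : ℤ := ∑ a, h N (B a) + ∑ a, h N (C a)

theorem exists_min (N : V → Finset V) (h0 : ∃ B C, Outer N B C) :
    ∃ B C, Outer N B C ∧ ∀ B' C', Outer N B' C' → cost N B C ≤ cost N B' C' := by
  classical
  obtain ⟨B0, C0, hBC⟩ := h0
  let s : Finset ((V → Finset V) × (V → Finset V)) := univ.filter fun p => Outer N p.1 p.2
  have hs : s.Nonempty := ⟨(B0, C0), by simp [s, hBC]⟩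
  obtain ⟨p, hp, hmin⟩ := Finset.exists_min_image s (fun p => cost N p.1 p.2) hs
  refine ⟨p.1, p.2, (mem_filter.1 hp).2, fun B' C' h' => ?_⟩
  exact hmin (B', C') (by simp [s, h'])

theorem self_mem_meet {N U : V → Finset V} (hU : ∀ a, N a ⊆ U a) (z : V) : z ∈ meet N U z :=
  mem_meet.2 fun a ha => hU a ha

/-- sum of the sizes of rows as a double sum of indicators -/
theorem sum_card (P : V → Finset V) :
    ∑ a, ((P a).card : ℤ) = ∑ a, ∑ x, (if x ∈ P a then (1 : ℤ) else 0) := by
  refine sum_congr rfl fun a _ => ?_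
  simp

theorem sum_card' (P : V → Finset V) :
    ∑ a, ((P a).card : ℤ) = ∑ a, ∑ x, (if a ∈ P x then (1 : ℤ) else 0) := by
  rw [sum_card, sum_comm]

theorem pairs_le {P Q : V → Finset V} (hPQ : ∀ a x, x ∈ P a → a ∈ Q x → x = a) :
    ∑ a, ((P a).card : ℤ) + ∑ a, ((Q a).card : ℤ) ≤
      ∑ a : V, ∑ x : V, (1 + (if x = a then (1 : ℤ) else 0)) := by
  rw [sum_card P, sum_card' Q, ← sum_add_distrib]
  refine sum_le_sum fun a _ => ?_
  rw [← sum_add_distrib]
  refine sum_le_sum fun x _ => ?_
  by_cases h1 : x ∈ P a
  · by_cases h2 : a ∈ Q x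
    · rw [if_pos h1, if_pos h2, if_pos (hPQ a x h1 h2)]
    · rw [if_pos h1, if_neg h2]
      split_ifs <;> norm_num
  · rw [if_neg h1]
    split_ifs <;> norm_num

theorem le_pairs {P Q : V → Finset V} (hPQ : ∀ a x, x ∈ P a ∨ a ∈ Q x)
    (h2 : ∀ a, a ∈ P a ∧ a ∈ Q a) :
    ∑ a : V, ∑ x : V, (1 + (if x = a then (1 : ℤ) else 0)) ≤
    ∑ a, ((P a).card : ℤ) + ∑ a, ((Q a).card : ℤ) := by
  rw [sum_card P, sum_card' Q, ← sum_add_distrib]
  refine sum_le_sum fun a _ => ?_
  rw [← sum_add_distrib]
  refine sum_le_sum fun x _ => ?_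
  by_cases h1 : x = a
  · subst h1
    simp [(h2 x).1, (h2 x).2]
  · rcases hPQ a x with h3 | h3
    · rw [if_neg h1, if_pos h3]
      split_ifs <;> norm_num
    · rw [if_neg h1, if_pos h3]
      split_ifs <;> norm_num

/-- the upper rows of an outer pair -/
def up (C : V → Finset V) (a : V) : Finset V := univ.filter fun x => x = a ∨ a ∉ C x

theorem mem_up {C : V → Finset V} {a x : V} : x ∈ up C a ↔ x = a ∨ a ∉ C x := by
  simp [up]

theorem sum_h (N P : V → Finset V) :
    ∑ a, h N (P a) = ∑ a, ((cl N (P a)).card : ℤ) - ∑ a, ((P a).card : ℤ) := by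
  rw [← sum_sub_distrib]
  rfl

section

variable {N B C : V → Finset V} (hN : ∀ v, v ∈ N v) (ho : Outer N B C)

include hN ho

/-- The pair of the closures of the intersections is an outer pair. -/
theorem outer_meet : Outer N (fun a => cl N (meet N B a)) (fun a => cl N (meet N C a)) where
  nb := fun a x hx => mem_cl.2 ⟨a, self_mem_meet ho.nb a, hx⟩
  nc := fun a x hx => mem_cl.2 ⟨a, self_mem_meet ho.nc a, hx⟩
  comp := by
    intro a b hb ha
    obtain ⟨x, hx, hbx⟩ := mem_cl.1 hb
    obtain ⟨y, hy, hay⟩ := mem_cl.1 ha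
    rw [mem_meet] at hx hy
    have e1 : x = y := ho.comp y x (hx y hay) (hy x hbx)
    subst e1
    have e2 : x = a := ho.comp a x (hx a (hN a)) (ho.nc x hay)
    have e3 : b = x := ho.comp x b (ho.nb x hbx) (hy b (hN b))
    rw [e3, e2]

/-- bookkeeping -/
theorem cost_meet
    (hkey : ∑ a, h N (up C a) + ∑ z, h N (meet N B z) ≤
      ∑ z, h N (meet N (up C) z) + ∑ a, h N (B a)) :
    cost N (meet N B) (meet N C) ≤ cost N B C := by
  have f1 := pairs_le (P := up C) (Q := C) (by
    intro a x h1 h2
    rcases mem_up.1 h1 with h | h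
    · exact h
    · exact absurd h2 h)
  have f2 := le_pairs (P := meet N (up C)) (Q := fun x => cl N (C x)) (by
    intro a x
    by_contra hc
    push Not at hc
    obtain ⟨h1, h2⟩ := hc
    rw [mem_meet] at h1
    push Not at h1
    obtain ⟨s, hs, hxs⟩ := h1
    rw [mem_up] at hxs
    push Not at hxs
    exact h2 (mem_cl.2 ⟨s, hxs.2, hs⟩)) (by
    intro a
    refine ⟨mem_meet.2 fun s hs => mem_up.2 ?_, mem_cl.2 ⟨a, ho.nc a (hN a), hN a⟩⟩
    by_cases h1 : s ∈ C a
    · exact Or.inl (ho.comp s a (ho.nb s hs) h1)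
    · exact Or.inr h1)
  have f3 := pairs_le (P := fun a => cl N (meet N (up C) a)) (Q := fun b => cl N (meet N C b)) (by
    intro a b h1 h2
    obtain ⟨x, hx, hbx⟩ := mem_cl.1 h1
    obtain ⟨y, hy, hay⟩ := mem_cl.1 h2
    rw [mem_meet] at hx hy
    have e1 : x = y := by
      rcases mem_up.1 (hx y hay) with h | h
      · exact h
      · exact absurd (hy x hbx) h
    subst e1
    have e2 : x = a := by
      rcases mem_up.1 (hx a (hN a)) with h | h
      · exact h
      · exact absurd (ho.nc x hay) h
    have e3 : b = x := ho.comp x b (ho.nb x hbx) (hy b (hN b))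
    rw [e3, e2])
  have f4 := le_pairs (P := fun a => cl N (up C a)) (Q := meet N C) (by
    intro a b
    by_contra hc
    push Not at hc
    obtain ⟨h1, h2⟩ := hc
    rw [mem_meet] at h2
    push Not at h2
    obtain ⟨t, ht, hat⟩ := h2
    exact h1 (mem_cl.2 ⟨t, mem_up.2 (Or.inr hat), ht⟩)) (by
    intro a
    exact ⟨mem_cl.2 ⟨a, mem_up.2 (Or.inl rfl), hN a⟩, self_mem_meet ho.nc a⟩)
  unfold cost
  simp only [sum_h] at hkey ⊢
  linarith

end

/-- the two optimality conditions -/
theorem key_of_min {N B C : V → Finset V} (hN : ∀ v, v ∈ N v) (ho : Outer N B C)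
    (hmin : ∀ B' C', Outer N B' C' → cost N B C ≤ cost N B' C') :
    ∑ a, h N (up C a) + ∑ z, h N (meet N B z) ≤
      ∑ z, h N (meet N (up C) z) + ∑ a, h N (B a) := by
  have hBU : ∀ a, B a ⊆ up C a := by
    intro a x hx
    rw [mem_up]
    by_cases h1 : a ∈ C x
    · exact Or.inl (ho.comp a x hx h1)
    · exact Or.inr h1
  refine key N hN B (up C) hBU ?_ ?_
  · intro a Y hY1 hY2
    have hO : Outer N (Function.update B a Y) C := by
      refine ⟨fun s => ?_, ho.nc, fun s x h1 h2 => ?_⟩
      · by_cases hs : s = a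
        · subst hs
          rw [Function.update_self]
          exact (ho.nb s).trans hY1
        · rw [Function.update_of_ne hs]
          exact ho.nb s
      · by_cases hs : s = a
        · subst hs
          rw [Function.update_self] at h1
          rcases mem_up.1 (hY2 h1) with h | h
          · exact h
          · exact absurd h2 h
        · rw [Function.update_of_ne hs] at h1
          exact ho.comp s x h1 h2
    have h1 := hmin _ _ hO
    unfold cost at h1
    have h2 : ∑ s, h N (Function.update B a Y s) = ∑ s, h N (B s) + (h N Y - h N (B a)) := by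
      rw [← sub_eq_iff_eq_add', ← sum_sub_distrib, sum_eq_single a]
      · rw [Function.update_self]
      · intro b _ hb
        rw [Function.update_of_ne hb, sub_self]
      · intro h3
        exact absurd (mem_univ _) h3
    linarith
  · intro b S hS
    have hdis : ∀ a ∈ S, a ∉ C b := by
      intro a ha
      rcases mem_up.1 (hS a ha).1 with h | h
      · subst h
        exact absurd (ho.nb b (hN b)) (hS b ha).2
      · exact h
    have hO : Outer N B (Function.update C b (C b ∪ S)) := by
      refine ⟨ho.nb, fun s => ?_, fun s x h1 h2 => ?_⟩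
      · by_cases hs : s = b
        · subst hs
          rw [Function.update_self]
          exact (ho.nc s).trans subset_union_left
        · rw [Function.update_of_ne hs]
          exact ho.nc s
      · by_cases hx : x = b
        · subst hx
          rw [Function.update_self, mem_union] at h2
          rcases h2 with h2 | h2
          · exact ho.comp s x h1 h2
          · exact absurd h1 (hS s h2).2
        · rw [Function.update_of_ne hx] at h2
          exact ho.comp s x h1 h2
    have h1 := hmin _ _ hO
    unfold cost at h1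
    have h2 : ∑ s, h N (Function.update C b (C b ∪ S) s) =
        ∑ s, h N (C s) + (h N (C b ∪ S) - h N (C b)) := by
      rw [← sub_eq_iff_eq_add', ← sum_sub_distrib, sum_eq_single b]
      · rw [Function.update_self]
      · intro s _ hs
        rw [Function.update_of_ne hs, sub_self]
      · intro h3
        exact absurd (mem_univ _) h3
    have h3 : h N (C b) ≤ h N (C b ∪ S) := by linarith
    have h4 : (C b ∪ S).card = (C b).card + S.card :=
      card_union_of_disjoint (disjoint_left.2 fun x hx hxS => hdis x hxS hx)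
    have h5 : cl N (C b ∪ S) ⊆ cl N (C b) ∪
        (univ.filter fun z => b ∈ meet N (up C) z ∧ ∃ a ∈ S, z ∈ N a) := by
      intro z hz
      by_cases hzC : z ∈ cl N (C b)
      · exact mem_union_left _ hzC
      · refine mem_union_right _ (mem_filter.2 ⟨mem_univ _, ?_, ?_⟩)
        · rw [mem_meet]
          intro a ha
          rw [mem_up]
          exact Or.inr fun hc => hzC (mem_cl.2 ⟨a, hc, ha⟩)
        · obtain ⟨a, ha, hza⟩ := mem_cl.1 hz
          rcases mem_union.1 ha with h | h
          · exact absurd (mem_cl.2 ⟨a, h, hza⟩) hzC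
          · exact ⟨a, h, hza⟩
    have h6 := (card_le_card h5).trans (card_union_le _ _)
    unfold h at h3
    rw [h4] at h3
    push_cast at h3
    omega

/-- The contradiction. -/
theorem no_gap [Nonempty V] {N : V → Finset V} (hN : ∀ v, v ∈ N v)
    (hanti : ∀ u v, u ∈ N v → v ∈ N u → u = v) (hout : ∀ v, ∃ u ∈ N v, u ≠ v)
    (hG : ∀ S : Finset V, cl N S ≠ S → h N (cl N S) < h N S) : False := by
  obtain ⟨B, C, ho, hmin⟩ := exists_min N ⟨N, N, fun _ => subset_rfl, fun _ => subset_rfl,
    fun a x h1 h2 => hanti x a h1 h2⟩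
  have h1 := cost_meet hN ho (key_of_min hN ho hmin)
  have h2 := hmin _ _ (outer_meet hN ho)
  have hle : ∀ S : Finset V, h N (cl N S) ≤ h N S := by
    intro S
    by_cases hS : cl N S = S
    · rw [hS]
    · exact (hG S hS).le
  -- all sets are closed
  have hclB : ∀ a, cl N (meet N B a) = meet N B a := by
    by_contra hc
    push Not at hc
    obtain ⟨a, ha⟩ := hc
    have h3 : ∑ a, h N (cl N (meet N B a)) < ∑ a, h N (meet N B a) :=
      sum_lt_sum (fun a _ => hle _) ⟨a, mem_univ _, hG _ ha⟩
    have h4 : ∑ a, h N (cl N (meet N C a)) ≤ ∑ a, h N (meet N C a) :=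
      sum_le_sum fun a _ => hle _
    unfold cost at h1 h2
    linarith
  have hclC : ∀ a, cl N (meet N C a) = meet N C a := by
    by_contra hc
    push Not at hc
    obtain ⟨a, ha⟩ := hc
    have h3 : ∑ a, h N (cl N (meet N C a)) < ∑ a, h N (meet N C a) :=
      sum_lt_sum (fun a _ => hle _) ⟨a, mem_univ _, hG _ ha⟩
    have h4 : ∑ a, h N (cl N (meet N B a)) ≤ ∑ a, h N (meet N B a) :=
      sum_le_sum fun a _ => hle _
    unfold cost at h1 h2
    linarith
  have hcomp := (outer_meet hN ho).comp
  simp only [hclB, hclC] at hcomp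
  -- a vertex with a minimal reach set
  classical
  let R : V → Finset V := fun a => univ.filter fun x => Relation.ReflTransGen (fun u v => v ∈ N u) a x
  have memR : ∀ a x, x ∈ R a ↔ Relation.ReflTransGen (fun u v => v ∈ N u) a x := by
    intro a x
    simp [R]
  have hclosed : ∀ (X : Finset V) (a : V), cl N X = X → a ∈ X → R a ⊆ X := by
    intro X a hX ha x hx
    rw [memR] at hx
    induction hx with
    | refl => exact ha
    | tail _ h4 ih =>
      rw [← hX]
      exact mem_cl.2 ⟨_, ih, h4⟩
  obtain ⟨a, -, ha⟩ := Finset.exists_min_image (univ : Finset V) (fun a => (R a).card)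
    univ_nonempty
  obtain ⟨b, hb, hba⟩ := hout a
  have hbR : R b ⊆ R a := by
    intro x hx
    rw [memR] at hx ⊢
    exact Relation.ReflTransGen.head hb hx
  have hab : a ∈ R b := by
    have h5 : R b = R a := eq_of_subset_of_card_le hbR (ha b (mem_univ _))
    rw [h5, memR]
  have h6 : b ∈ meet N B a := hclosed _ a (hclB a) (self_mem_meet ho.nb a)
    ((memR a b).2 (Relation.ReflTransGen.single hb))
  have h7 : a ∈ meet N C b := hclosed _ b (hclC b) (self_mem_meet ho.nc b) hab
  exact hba (hcomp a b h6 h7)

end Vale.Agent.P038.H803
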